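import Vale.Agent.P174.Main

namespace Vale.Agent.Results.P174.A_full

open Vale.Agent.P174

universe u

theorem result (G : Type u) [Group G] (m n : ℕ)
    (w : Fin m → Monoid.Coprod G (FreeGroup (Fin n)))
    (h : (Matrix.of fun (i : Fin m) (j : Fin n) => (expSum (w i) j : ℚ)).rank = m) :
    Function.Injective ((QuotientGroup.mk' (Subgroup.normalClosure (Set.range w))).comp
      (Monoid.Coprod.inl : G →* Monoid.Coprod G (FreeGroup (Fin n)))) :=
  (injective_iff_map_eq_one _).mpr fun _ hg => howie w h ((QuotientGroup.eq_one_iff _).mp hg)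

end Vale.Agent.Results.P174.A_full
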